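import Vale.Agent.P039.BC.Defs
import Vale.Agent.P039.Bn.Defs
import Vale.Agent.P039.H397.Defs
import Mathlib.SetTheory.Cardinal.Finite

/-! Adapters between `Sk.Web` with `Sk.Lab`, `Bn.PMap` and the different forms of cuts. -/

namespace Vale.Agent.P039.H867

open Vale.Agent.P039 Vale.Agent.P039.Sk

variable {B W V : Type}

/-- a web with labelled faces as a hypermap -/
def toPMap (X : Web B W) (L : Lab X V) : Bn.PMap B W V where
  e := X.e
  c := L.c
  step := L.step
  exact := L.exact
  cls := L.cls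
  surj := L.surj

/-- the web of a hypermap -/
def ofPMap (M : Bn.PMap B W V) : Web B W := ⟨M.e⟩

/-- the faces of a hypermap -/
def labOfPMap (M : Bn.PMap B W V) : Lab (ofPMap M) V where
  c := M.c
  step := M.step
  exact := M.exact
  cls := M.cls
  surj := M.surj

@[simp] theorem toPMap_e (X : Web B W) (L : Lab X V) : (toPMap X L).e = X.e := rfl
@[simp] theorem toPMap_c (X : Web B W) (L : Lab X V) : (toPMap X L).c = L.c := rfl
@[simp] theorem ofPMap_e (M : Bn.PMap B W V) : (ofPMap M).e = M.e := rfl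
@[simp] theorem labOfPMap_c (M : Bn.PMap B W V) : (labOfPMap M).c = M.c := rfl

/-- two black vertices with a common white neighbour have a common face -/
theorem same_of_white (X : Web B W) (L : Lab X V) {i i' : Fin 3} {x y : B}
    (h : X.e i x = X.e i' y) : ∃ j, L.c j x = L.c j y := by
  rcases fcase i' i with h' | h' | h'
  · subst h'
    have : x = y := (X.e i').injective h
    exact ⟨0, by rw [this]⟩
  · subst h'
    exact ⟨i + 2, L.step (i + 2) y x (by rw [f21, f22]; exact h)⟩
  · subst h'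
    exact ⟨i + 1, (L.step (i + 1) x y (by rw [f11, f12]; exact h.symm)).symm⟩

theorem pconn_of_conn {X : Web B W} (L : Lab X V) (h : ∀ x y, Relation.EqvGen X.Step x y) :
    (toPMap X L).Conn := by
  intro b b'
  set r : B → B → Prop := fun x y => ∃ j, L.c j x = L.c j y with hr
  let Q : B ⊕ W → Prop := Sum.elim (fun x => Relation.EqvGen r b x)
    (fun w => ∀ i, Relation.EqvGen r b ((X.e i).symm w))
  have key : ∀ x y, X.Step x y → (Q x ↔ Q y) := by
    rintro x y ⟨i, c, rfl, rfl⟩
    constructor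
    · intro hQ i'
      have hQ' : Relation.EqvGen r b c := hQ
      refine hQ'.trans _ _ _ (Relation.EqvGen.rel _ _ ?_)
      exact same_of_white X L (i := i) (i' := i') (by rw [Equiv.apply_symm_apply])
    · intro hQ
      have hQ' : Relation.EqvGen r b ((X.e i).symm (X.e i c)) := hQ i
      rw [Equiv.symm_apply_apply] at hQ'
      exact hQ'
  have hall : ∀ x y, Relation.EqvGen X.Step x y → (Q x ↔ Q y) := by
    intro x y hxy
    induction hxy with
    | rel x y hxy => exact key x y hxy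
    | refl x => exact Iff.rfl
    | symm x y _ ih => exact ih.symm
    | trans x y z _ _ ih1 ih2 => exact ih1.trans ih2
  exact (hall _ _ (h (Sum.inl b) (Sum.inl b'))).1 (Relation.EqvGen.refl _)

theorem psph_of_sph3 [Fintype B] [Fintype V] {X : Web B W} {L : Lab X V} (h : X.Sph3 L) :
    (toPMap X L).Sph := ⟨pconn_of_conn L h.conn, h.euler⟩

theorem conn_of_pconn (M : Bn.PMap B W V) (h : M.Conn) :
    ∀ x y, Relation.EqvGen (ofPMap M).Step x y := by
  have hstep : ∀ i b, Relation.EqvGen (ofPMap M).Step (Sum.inl b) (Sum.inr (M.e i b)) :=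
    fun i b => Relation.EqvGen.rel _ _ ⟨i, b, rfl, rfl⟩
  have h1 : ∀ j x y, Relation.EqvGen (fun x y => M.e (j + 1) y = M.e (j + 2) x) x y →
      Relation.EqvGen (ofPMap M).Step (Sum.inl x) (Sum.inl y) := by
    intro j x y hxy
    induction hxy with
    | rel x y hxy =>
      refine (hstep (j + 2) x).trans _ _ _ ?_
      rw [← hxy]
      exact (hstep (j + 1) y).symm
    | refl x => exact Relation.EqvGen.refl _
    | symm x y _ ih => exact ih.symm
    | trans x y z _ _ ih1 ih2 => exact ih1.trans _ _ _ ih2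
  have h2 : ∀ x y, Relation.EqvGen (ofPMap M).Step (Sum.inl x) (Sum.inl y) := by
    intro x y
    have h3 := h x y
    induction h3 with
    | rel x y hxy =>
      obtain ⟨j, hj⟩ := hxy
      exact h1 j x y (M.exact j x y hj)
    | refl x => exact Relation.EqvGen.refl _
    | symm x y _ ih => exact ih.symm
    | trans x y z _ _ ih1 ih2 => exact ih1.trans _ _ _ ih2
  have h3 : ∀ x : B ⊕ W, ∃ b, Relation.EqvGen (ofPMap M).Step (Sum.inl b) x := by
    rintro (b | w)
    · exact ⟨b, Relation.EqvGen.refl _⟩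
    · refine ⟨(M.e 0).symm w, ?_⟩
      have := hstep 0 ((M.e 0).symm w)
      rw [Equiv.apply_symm_apply] at this
      exact this
  intro x y
  obtain ⟨a, ha⟩ := h3 x
  obtain ⟨b, hb⟩ := h3 y
  exact (ha.symm.trans _ _ _ (h2 a b)).trans _ _ _ hb

/-! ### Cuts -/

/-- a set of vertices from a set of blacks and a set of whites -/
def bw (S : Set B) (T : Set W) : Set (B ⊕ W) := {x | Sum.elim (· ∈ S) (· ∈ T) x}

@[simp] theorem inl_mem_bw {S : Set B} {T : Set W} {b : B} : Sum.inl b ∈ bw S T ↔ b ∈ S := Iff.rfl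
@[simp] theorem inr_mem_bw {S : Set B} {T : Set W} {w : W} : Sum.inr w ∈ bw S T ↔ w ∈ T := Iff.rfl

theorem bw_compl (S : Set B) (T : Set W) : (bw S T)ᶜ = bw Sᶜ Tᶜ := by
  ext x
  rcases x with b | w <;> rfl

theorem bw_surj (S : Set (B ⊕ W)) : bw {b | Sum.inl b ∈ S} {w | Sum.inr w ∈ S} = S := by
  ext x
  rcases x with b | w <;> rfl

theorem ncard_bw [Finite B] [Finite W] (S : Set B) (T : Set W) :
    (bw S T).ncard = S.ncard + T.ncard := by
  have h : bw S T = Sum.inl '' S ∪ Sum.inr '' T := by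
    ext x
    rcases x with b | w
    · simp
    · simp
  have hd : Disjoint (Sum.inl '' S : Set (B ⊕ W)) (Sum.inr '' T) := by
    rw [Set.disjoint_left]
    rintro _ ⟨b, _, rfl⟩ ⟨w, _, h⟩
    cases h
  rw [h, Set.ncard_union_eq hd (Set.toFinite _) (Set.toFinite _),
    Set.ncard_image_of_injective _ Sum.inl_injective,
    Set.ncard_image_of_injective _ Sum.inr_injective]

theorem cutN_eq (X : Web B W) (S : Set B) (T : Set W) :
    X.cutN S T = (X.cutSet (bw S T)).ncard := by
  unfold Web.cutN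
  rw [← Nat.card_coe_set_eq]
  refine Nat.card_congr ⟨fun q => ⟨(q.1.2, q.1.1), q.2⟩, fun q => ⟨(q.1.2, q.1.1), q.2⟩, ?_, ?_⟩
  · intro q; rfl
  · intro q; rfl

theorem e3_of_sph3 [Fintype B] [Fintype V] {X : Web B W} {L : Lab X V} (h : X.Sph3 L) : X.E3 := by
  intro S T h1 h2
  rw [cutN_eq]
  apply h.cut3
  · rcases h1 with ⟨b, hb⟩ | ⟨w, hw⟩
    · exact ⟨Sum.inl b, hb⟩
    · exact ⟨Sum.inr w, hw⟩
  · rw [bw_compl]
    rcases h2 with h2 | h2
    · obtain ⟨b, hb⟩ := (Set.ne_univ_iff_exists_notMem _).1 h2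
      exact ⟨Sum.inl b, hb⟩
    · obtain ⟨w, hw⟩ := (Set.ne_univ_iff_exists_notMem _).1 h2
      exact ⟨Sum.inr w, hw⟩

theorem atomic_of_sph4 [Fintype B] [Fintype W] [Fintype V] {X : Web B W} {L : Lab X V}
    (h : X.Sph4 L) : X.Atomic := by
  intro S T h1
  rw [cutN_eq] at h1
  by_contra hc
  push Not at hc
  have h2 := h.cut4 (bw S T) (by rw [ncard_bw]; omega) (by rw [bw_compl, ncard_bw]; omega)
  omega

theorem cutSet_finite [Finite B] (X : Web B W) (S : Set (B ⊕ W)) : (X.cutSet S).Finite :=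
  Set.toFinite _

/-- the Hamiltonicity of the matching form, in terms of the white vertices only -/
theorem ham_iff_hamCol (X : Web B W) (m : B → Fin 3) : X.Ham m ↔ X.HamCol m := by
  constructor
  · intro h
    refine ⟨h.bij, ?_⟩
    intro w w'
    set r : W → W → Prop := fun w w' => ∃ b j j', j ≠ m b ∧ j' ≠ m b ∧ X.e j b = w ∧ X.e j' b = w'
      with hr
    let Q : B ⊕ W → Prop := Sum.elim (fun b => ∀ j, j ≠ m b → Relation.EqvGen r w (X.e j b))
      (fun x => Relation.EqvGen r w x)
    have key : ∀ x y, (∃ i b, i ≠ m b ∧ x = Sum.inl b ∧ y = Sum.inr (X.e i b)) → (Q x ↔ Q y) := by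
      rintro x y ⟨i, b, hi, rfl, rfl⟩
      constructor
      · intro hQ
        exact hQ i hi
      · intro hQ j hj
        have hQ' : Relation.EqvGen r w (X.e i b) := hQ
        exact hQ'.trans _ _ _ (Relation.EqvGen.rel _ _ ⟨b, i, j, hi, hj, rfl, rfl⟩)
    have hall : ∀ x y, Relation.EqvGen
        (fun x y => ∃ i b, i ≠ m b ∧ x = Sum.inl b ∧ y = Sum.inr (X.e i b)) x y →
        (Q x ↔ Q y) := by
      intro x y hxy
      induction hxy with
      | rel x y hxy => exact key x y hxy
      | refl x => exact Iff.rfl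
      | symm x y _ ih => exact ih.symm
      | trans x y z _ _ ih1 ih2 => exact ih1.trans ih2
    exact (hall _ _ (h.conn (Sum.inr w) (Sum.inr w'))).1 (Relation.EqvGen.refl _)
  · rintro ⟨h1, h2⟩
    refine ⟨h1, ?_⟩
    set s : B ⊕ W → B ⊕ W → Prop := fun x y =>
      ∃ i b, i ≠ m b ∧ x = Sum.inl b ∧ y = Sum.inr (X.e i b) with hs
    have hw : ∀ w w', Relation.EqvGen s (Sum.inr w) (Sum.inr w') := by
      intro w w'
      have h3 := h2 w w'
      induction h3 with
      | rel x y hxy =>
        obtain ⟨b, j, j', hj, hj', rfl, rfl⟩ := hxy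
        exact (Relation.EqvGen.rel _ _ ⟨j, b, hj, rfl, rfl⟩ :
          Relation.EqvGen s (Sum.inl b) _).symm.trans _ _ _
            (Relation.EqvGen.rel _ _ ⟨j', b, hj', rfl, rfl⟩)
      | refl x => exact Relation.EqvGen.refl _
      | symm x y _ ih => exact ih.symm
      | trans x y z _ _ ih1 ih2 => exact ih1.trans _ _ _ ih2
    have hb : ∀ x : B ⊕ W, ∃ w, Relation.EqvGen s x (Sum.inr w) := by
      rintro (b | w)
      · exact ⟨X.e (m b + 1) b, Relation.EqvGen.rel _ _ ⟨_, b, fne1 _, rfl, rfl⟩⟩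
      · exact ⟨w, Relation.EqvGen.refl _⟩
    intro x y
    obtain ⟨w, hw1⟩ := hb x
    obtain ⟨w', hw2⟩ := hb y
    exact (hw1.trans _ _ _ (hw w w')).trans _ _ _ hw2.symm

end Vale.Agent.P039.H867
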