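import Vale.Agent.P039.BC.Defs
import Vale.Agent.P039.Bn.H940.Ham

/-! From the matching form to Hamiltonian cycles which avoid a given edge. -/

namespace Vale.Agent.P039.H867

open Vale.Agent.P039 Vale.Agent.P039.Sk Vale.Agent.P039.H940

variable {B W : Type}

theorem mg_not_adj {X : Web B W} {μ : B → Fin 3} (hs : ∀ b i j, X.e i b = X.e j b → i = j)
    (b : B) : ¬ (MG X μ).Adj (Sum.inl b) (Sum.inr (X.e (μ b) b)) := by
  rw [mg_adj_black]
  rintro ⟨i, hi, he⟩
  exact hi (hs b i (μ b) (Sum.inr_injective he).symm)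

theorem mg_le_del {X : Web B W} {μ : B → Fin 3} (hs : ∀ b i j, X.e i b = X.e j b → i = j)
    (b : B) : MG X μ ≤ X.graph.deleteEdges {s(Sum.inl b, Sum.inr (X.e (μ b) b))} := by
  intro x y hxy
  rw [SimpleGraph.deleteEdges_adj, Set.mem_singleton_iff]
  refine ⟨mg_le hxy, fun hc => ?_⟩
  rw [Sym2.eq_iff] at hc
  rcases hc with ⟨rfl, rfl⟩ | ⟨rfl, rfl⟩
  · exact mg_not_adj hs b hxy
  · exact mg_not_adj hs b hxy.symm

/-- the Hamiltonian cycle outside a perfect matching avoids the edges of the matching -/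
theorem avoid_of_matching [Fintype B] [Fintype W] [DecidableEq B] [DecidableEq W] (X : Web B W)
    (hN : ∃ b b' : B, b ≠ b') (hs : ∀ b i j, X.e i b = X.e j b → i = j) (μ : B → Fin 3)
    (hinj : Function.Injective fun b => X.e (μ b) b)
    (hconn : ∀ x y, Relation.EqvGen (ME X μ) x y) (b : B) :
    (X.graph.deleteEdges {s(Sum.inl b, Sum.inr (X.e (μ b) b))}).IsHamiltonian := by
  intro _
  have hn : ((MG X μ).neighborSet (Sum.inl b)).Nonempty :=
    ⟨Sum.inr (X.e (μ b + 1) b), mg_adj_black.2 ⟨_, fne1 _, rfl⟩⟩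
  obtain ⟨p, hp, hv⟩ :=
    (mg_isCycles hN hinj hconn).exists_cycle_toSubgraph_verts_eq_connectedComponentSupp
      (c := (MG X μ).connectedComponentMk (Sum.inl b)) (v := Sum.inl b) rfl hn
  have hall : ∀ a, a ∈ p.support := by
    intro a
    rw [← SimpleGraph.Walk.mem_verts_toSubgraph, hv]
    exact SimpleGraph.ConnectedComponent.eq.2 (mg_reachable hconn _ _)
  refine ⟨Sum.inl b, p.mapLe (mg_le_del hs b), ?_⟩
  rw [SimpleGraph.Walk.isHamiltonianCycle_iff_isCycle_and_support_count_tail_eq_one]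
  refine ⟨hp.mapLe _, fun a => ?_⟩
  rw [SimpleGraph.Walk.support_mapLe_eq_support]
  refine hsol_count hp.support_nodup ?_
  have ha := hall a
  rw [SimpleGraph.Walk.mem_support_iff] at ha
  rcases ha with rfl | ha
  · exact SimpleGraph.Walk.end_mem_tail_support hp.not_nil
  · exact ha

/-- transport of Hamiltonicity of the graph without an edge along an isomorphism -/
theorem avoid_transport {V V' : Type*} [Fintype V] [DecidableEq V] [Fintype V'] [DecidableEq V']
    {H : SimpleGraph V'} {G : SimpleGraph V} (φ : H ≃g G) (x y : V')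
    (h : (H.deleteEdges {s(x, y)}).IsHamiltonian) :
    (G.deleteEdges {s(φ x, φ y)}).IsHamiltonian := by
  let ψ : (H.deleteEdges {s(x, y)}) →g (G.deleteEdges {s(φ x, φ y)}) :=
    ⟨φ, by
      intro a c hac
      rw [SimpleGraph.deleteEdges_adj] at hac ⊢
      refine ⟨φ.map_adj_iff.2 hac.1, fun hmem => hac.2 ?_⟩
      rw [Set.mem_singleton_iff] at hmem ⊢
      have h1 : s(φ x, φ y) = Sym2.map φ s(x, y) := (Sym2.map_mk _ _ _).symm
      rw [h1, ← Sym2.map_mk] at hmem
      exact Sym2.map.injective φ.injective hmem⟩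
  intro hV
  have hcV : Fintype.card V' ≠ 1 := by
    rw [Fintype.card_congr φ.toEquiv]; exact hV
  obtain ⟨a, p, hp⟩ := h hcV
  exact ⟨φ a, p.map ψ, hp.map (f := ψ) φ.bijective⟩

theorem exists_ne_of_two [Fintype B] (h : 2 ≤ Fintype.card B) : ∃ b b' : B, b ≠ b' := by
  have h1 : 1 < Fintype.card B := h
  exact Fintype.one_lt_card_iff.1 h1

/-- If every edge of the web is avoided by a Hamiltonian cycle, the same holds for an isomorphic
graph. -/
theorem avoidAll_of_web [Fintype B] [Fintype W] {V : Type*} [Fintype V] [DecidableEq V]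
    {G : SimpleGraph V} (X : Web B W) (φ : X.graph ≃g G) (hN : 2 ≤ Fintype.card B)
    (hs : ∀ b i j, X.e i b = X.e j b → i = j)
    (h : ∀ b i, ∃ m, X.Ham m ∧ m b = i) : AvoidAll G := by
  classical
  -- an edge seen from its black end
  have key : ∀ b i, (G.deleteEdges {s(φ (Sum.inl b), φ (Sum.inr (X.e i b)))}).IsHamiltonian := by
    intro b i
    obtain ⟨m, hm, rfl⟩ := h b i
    exact avoid_transport φ _ _
      (avoid_of_matching X (exists_ne_of_two hN) hs m hm.bij.injective hm.conn b)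
  intro u v huv
  have h1 : X.graph.Adj (φ.symm u) (φ.symm v) := φ.symm.map_adj_iff.2 huv
  replace h1 := (SimpleGraph.fromRel_adj _ _ _).1 h1
  have hu : φ (φ.symm u) = u := φ.apply_symm_apply u
  have hv : φ (φ.symm v) = v := φ.apply_symm_apply v
  rcases h1.2 with ⟨i, b, hx, hy⟩ | ⟨i, b, hx, hy⟩
  · have := key b i
    rw [← hx, ← hy, hu, hv] at this
    exact this
  · have := key b i
    rw [← hx, ← hy, hu, hv, Sym2.eq_swap] at this
    exact this

/-- `AvoidAll` implies that a graph with an edge is Hamiltonian. -/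
theorem isHamiltonian_of_avoidAll {V : Type*} [Fintype V] [DecidableEq V] {G : SimpleGraph V}
    (h : AvoidAll G) (hne : ∃ u v, G.Adj u v) : G.IsHamiltonian := by
  obtain ⟨u, v, huv⟩ := hne
  intro hV
  obtain ⟨a, p, hp⟩ := h u v huv hV
  exact ⟨a, p.mapLe (SimpleGraph.deleteEdges_le _), hp.map (f := SimpleGraph.Hom.ofLE
    (SimpleGraph.deleteEdges_le _)) Function.bijective_id⟩

end Vale.Agent.P039.H867
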